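import Mathlib

/-!
# P096 helper lemma: block-diagonal operators and the double commutant

Let `V k : H k → E` be isometries of Hilbert spaces (the adjoint of `V k` times `V k` is `1`) and let `A k` be sets of
operators on `H k` that equal their double commutants.  The set `blockDiag V A` of all operators
`X` on `E` that commute with every range projection `P k` (the product of `V k` and its adjoint)
and whose compressions to `H k` (adjoint of `V k`, then `X`, then `V k`) lie in `A k` equals its
double commutant.
-/

namespace Vale.Agent.Lib.P096.H44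

open ContinuousLinearMap

variable {ι : Type*} {H : ι → Type*} [∀ k, NormedAddCommGroup (H k)]
  [∀ k, InnerProductSpace ℂ (H k)] [∀ k, CompleteSpace (H k)]
  {E : Type*} [NormedAddCommGroup E] [InnerProductSpace ℂ E] [CompleteSpace E]

/-- Operators on `E` commuting with all range projections of the `V k` and with `k`-th
compression in `A k`. -/
def blockDiag (V : ∀ k, H k →L[ℂ] E) (A : ∀ k, Set (H k →L[ℂ] H k)) : Set (E →L[ℂ] E) :=
  {X | ∀ k, X * (V k ∘L adjoint (V k)) = (V k ∘L adjoint (V k)) * X ∧
    adjoint (V k) ∘L X ∘L V k ∈ A k}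

theorem mem_blockDiag (V : ∀ k, H k →L[ℂ] E) (A : ∀ k, Set (H k →L[ℂ] H k))
    (X : E →L[ℂ] E) :
    X ∈ blockDiag V A ↔ ∀ k, X * (V k ∘L adjoint (V k)) = (V k ∘L adjoint (V k)) * X ∧
      adjoint (V k) ∘L X ∘L V k ∈ A k := Iff.rfl

/-- The range projections lie in the commutant of `blockDiag V A`. -/
theorem proj_mem_centralizer_blockDiag (V : ∀ k, H k →L[ℂ] E)
    (A : ∀ k, Set (H k →L[ℂ] H k)) (k : ι) :
    V k ∘L adjoint (V k) ∈ Set.centralizer (blockDiag V A) := by
  intro X hX
  exact (hX k).1

/-- For `S` in the commutant of `A k`, the operator `V k ∘ S ∘ adjoint (V k)` lies in the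
commutant of `blockDiag V A`. -/
theorem lift_mem_centralizer_blockDiag (V : ∀ k, H k →L[ℂ] E)
    (hV : ∀ k, adjoint (V k) ∘L V k = ContinuousLinearMap.id ℂ (H k))
    (A : ∀ k, Set (H k →L[ℂ] H k)) (k : ι) (S : H k →L[ℂ] H k)
    (hS : S ∈ Set.centralizer (A k)) :
    V k ∘L S ∘L adjoint (V k) ∈ Set.centralizer (blockDiag V A) := by
  have hVk : ∀ x : H k, adjoint (V k) (V k x) = x := by
    intro x
    have h3 := congrArg (fun T : H k →L[ℂ] H k => T x) (hV k)
    simpa using h3
  intro X hX
  obtain ⟨hX1, hX2⟩ := hX k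
  have hX1' : ∀ y : E, X (V k (adjoint (V k) y)) = V k (adjoint (V k) (X y)) := by
    intro y
    have h3 := congrArg (fun T : E →L[ℂ] E => T y) hX1
    simpa using h3
  have hcomm := hS _ hX2
  have hcomm' : ∀ h : H k, adjoint (V k) (X (V k (S h))) = S (adjoint (V k) (X (V k h))) := by
    intro h
    have h3 := congrArg (fun T : H k →L[ℂ] H k => T h) hcomm
    simpa using h3
  ext y
  simp only [ContinuousLinearMap.mul_def, ContinuousLinearMap.comp_apply]
  have h1 := hX1' (V k (S (adjoint (V k) y)))
  rw [hVk] at h1
  rw [h1, hcomm', hX1' y, hVk]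

/-- **Double commutant of the block-diagonal set.** -/
theorem blockDiag_centralizer_centralizer (V : ∀ k, H k →L[ℂ] E)
    (hV : ∀ k, adjoint (V k) ∘L V k = ContinuousLinearMap.id ℂ (H k))
    (A : ∀ k, Set (H k →L[ℂ] H k))
    (hA : ∀ k, Set.centralizer (Set.centralizer (A k)) = A k) :
    Set.centralizer (Set.centralizer (blockDiag V A)) = blockDiag V A := by
  apply Set.Subset.antisymm
  · intro Z hZ k
    have hVk : ∀ x : H k, adjoint (V k) (V k x) = x := by
      intro x
      have h3 := congrArg (fun T : H k →L[ℂ] H k => T x) (hV k)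
      simpa using h3
    refine ⟨?_, ?_⟩
    · exact (hZ _ (proj_mem_centralizer_blockDiag V A k)).symm
    · rw [← hA k]
      intro S hS
      have hT := hZ _ (lift_mem_centralizer_blockDiag V hV A k S hS)
      have hT' : ∀ y : E, V k (S (adjoint (V k) (Z y))) = Z (V k (S (adjoint (V k) y))) := by
        intro y
        have h3 := congrArg (fun T : E →L[ℂ] E => T y) hT
        simpa using h3
      ext h
      simp only [ContinuousLinearMap.mul_def, ContinuousLinearMap.comp_apply]
      have h1 := hT' (V k h)
      rw [hVk] at h1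
      rw [← h1, hVk]
  · exact Set.subset_centralizer_centralizer

end Vale.Agent.Lib.P096.H44
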