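import Mathlib

/-!
# P096 helper lemma: compression of a unitary that commutes with a range projection

Let `V : H → E` be an isometry of Hilbert spaces (`V† V = 1`) and `u` a unitary of `E` commuting
with the projection `V V†`.  Then `V† u V` is a unitary of `H` and
`‖V† u V - 1‖ ≤ ‖u - 1‖`.
-/

namespace Vale.Agent.Lib.P096.H44

open ContinuousLinearMap

variable {H E : Type*} [NormedAddCommGroup H] [InnerProductSpace ℂ H] [CompleteSpace H]
  [NormedAddCommGroup E] [InnerProductSpace ℂ E] [CompleteSpace E]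

/-- An operator with `V† V = 1` preserves norms. -/
theorem norm_map_of_adjoint_comp_self (V : H →L[ℂ] E)
    (hV : adjoint V ∘L V = ContinuousLinearMap.id ℂ H) (x : H) : ‖V x‖ = ‖x‖ := by
  have h1 : inner ℂ (V x) (V x) = inner ℂ x x := by
    rw [← adjoint_inner_left V x (V x)]
    have h2 : adjoint V (V x) = x := by
      have h3 := congrArg (fun T : H →L[ℂ] H => T x) hV
      simpa using h3
    rw [h2]
  have h4 : ‖V x‖ ^ 2 = ‖x‖ ^ 2 := by
    have h5 := congrArg RCLike.re h1
    rw [inner_self_eq_norm_sq (𝕜 := ℂ), inner_self_eq_norm_sq (𝕜 := ℂ)] at h5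
    exact h5
  calc ‖V x‖ = Real.sqrt (‖V x‖ ^ 2) := (Real.sqrt_sq (norm_nonneg _)).symm
    _ = Real.sqrt (‖x‖ ^ 2) := by rw [h4]
    _ = ‖x‖ := Real.sqrt_sq (norm_nonneg _)

theorem opNorm_le_one_of_adjoint_comp_self (V : H →L[ℂ] E)
    (hV : adjoint V ∘L V = ContinuousLinearMap.id ℂ H) : ‖V‖ ≤ 1 := by
  apply ContinuousLinearMap.opNorm_le_bound _ zero_le_one
  intro x
  rw [norm_map_of_adjoint_comp_self V hV x, one_mul]

/-- Compression of a unitary commuting with the range projection of an isometry. -/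
theorem compress_unitary (V : H →L[ℂ] E) (hV : adjoint V ∘L V = ContinuousLinearMap.id ℂ H)
    (u : E →L[ℂ] E) (hu1 : adjoint u ∘L u = ContinuousLinearMap.id ℂ E)
    (hu2 : u ∘L adjoint u = ContinuousLinearMap.id ℂ E)
    (hc : u ∘L (V ∘L adjoint V) = (V ∘L adjoint V) ∘L u) :
    adjoint (adjoint V ∘L u ∘L V) ∘L (adjoint V ∘L u ∘L V) = ContinuousLinearMap.id ℂ H ∧
    (adjoint V ∘L u ∘L V) ∘L adjoint (adjoint V ∘L u ∘L V) = ContinuousLinearMap.id ℂ H ∧
    ‖adjoint V ∘L u ∘L V - ContinuousLinearMap.id ℂ H‖ ≤ ‖u - ContinuousLinearMap.id ℂ E‖ := by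
  have hV' : ∀ x : H, adjoint V (V x) = x := by
    intro x
    have h3 := congrArg (fun T : H →L[ℂ] H => T x) hV
    simpa using h3
  have hu1' : ∀ y : E, adjoint u (u y) = y := by
    intro y
    have h3 := congrArg (fun T : E →L[ℂ] E => T y) hu1
    simpa using h3
  have hu2' : ∀ y : E, u (adjoint u y) = y := by
    intro y
    have h3 := congrArg (fun T : E →L[ℂ] E => T y) hu2
    simpa using h3
  have hc' : ∀ y : E, u (V (adjoint V y)) = V (adjoint V (u y)) := by
    intro y
    have h3 := congrArg (fun T : E →L[ℂ] E => T y) hc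
    simpa using h3
  have hadj : adjoint (adjoint V ∘L u ∘L V) = adjoint V ∘L adjoint u ∘L V := by
    rw [adjoint_comp, adjoint_comp, adjoint_adjoint]
    rfl
  refine ⟨?_, ?_, ?_⟩
  · rw [hadj]
    ext x
    simp only [ContinuousLinearMap.comp_apply, ContinuousLinearMap.id_apply]
    rw [← hc' (V x), hu1', hV', hV']
  · rw [hadj]
    ext x
    simp only [ContinuousLinearMap.comp_apply, ContinuousLinearMap.id_apply]
    rw [hc' (adjoint u (V x)), hu2', hV', hV']
  · have heq : adjoint V ∘L u ∘L V - ContinuousLinearMap.id ℂ H =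
        adjoint V ∘L (u - ContinuousLinearMap.id ℂ E) ∘L V := by
      ext x
      simp only [_root_.sub_apply, ContinuousLinearMap.comp_apply,
        ContinuousLinearMap.id_apply, map_sub]
      rw [hV']
    rw [heq]
    have hV1 := opNorm_le_one_of_adjoint_comp_self V hV
    have hV2 : ‖adjoint V‖ ≤ 1 := by
      rw [LinearIsometryEquiv.norm_map]
      exact hV1
    calc ‖adjoint V ∘L (u - ContinuousLinearMap.id ℂ E) ∘L V‖
        ≤ ‖adjoint V‖ * ‖(u - ContinuousLinearMap.id ℂ E) ∘L V‖ := opNorm_comp_le _ _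
      _ ≤ ‖adjoint V‖ * (‖u - ContinuousLinearMap.id ℂ E‖ * ‖V‖) :=
          mul_le_mul_of_nonneg_left (opNorm_comp_le _ _) (norm_nonneg _)
      _ ≤ 1 * (‖u - ContinuousLinearMap.id ℂ E‖ * 1) := by
          apply mul_le_mul hV2 _ (by positivity) zero_le_one
          exact mul_le_mul_of_nonneg_left hV1 (norm_nonneg _)
      _ = ‖u - ContinuousLinearMap.id ℂ E‖ := by ring

end Vale.Agent.Lib.P096.H44
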