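import Mathlib
import Vale.Agent.Lib.P096.helper44.BlockDiag
import Vale.Agent.Lib.P096.helper44.Compress

/-!
# P096 helper: the block-diagonal von Neumann algebra of a family of von Neumann algebras

For isometries `V k : H k → E` and von Neumann algebras `A k` on `H k`, the set
`blockDiag V A` is a von Neumann algebra `blockVN V hV A` on `E`.  If the ranges of the `V k` are
pairwise orthogonal, it contains the range projections and the operators `V k ∘ T ∘ adjoint (V k)`
with `T` in `A k`.
-/

namespace Vale.Agent.Lib.P096.H44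

open ContinuousLinearMap

universe u v

variable {ι : Type v} {H : ι → Type u} [∀ k, NormedAddCommGroup (H k)]
  [∀ k, InnerProductSpace ℂ (H k)] [∀ k, CompleteSpace (H k)]
  {E : Type u} [NormedAddCommGroup E] [InnerProductSpace ℂ E] [CompleteSpace E]

theorem adjoint_apply_self (V : ∀ k, H k →L[ℂ] E)
    (hV : ∀ k, adjoint (V k) ∘L V k = ContinuousLinearMap.id ℂ (H k)) (k : ι) (x : H k) :
    adjoint (V k) (V k x) = x := by
  have h3 := congrArg (fun T : H k →L[ℂ] H k => T x) (hV k)
  simpa using h3

theorem adjoint_apply_other (V : ∀ k, H k →L[ℂ] E)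
    (hVo : ∀ j k, j ≠ k → adjoint (V j) ∘L V k = 0) (j k : ι) (hjk : j ≠ k) (x : H k) :
    adjoint (V j) (V k x) = 0 := by
  have h3 := congrArg (fun T : H k →L[ℂ] H j => T x) (hVo j k hjk)
  simpa using h3

theorem commute_apply (V : ∀ k, H k →L[ℂ] E) (k : ι) (X : E →L[ℂ] E)
    (hX : X * (V k ∘L adjoint (V k)) = (V k ∘L adjoint (V k)) * X) (y : E) :
    X (V k (adjoint (V k) y)) = V k (adjoint (V k) (X y)) := by
  have h3 := congrArg (fun T : E →L[ℂ] E => T y) hX
  simpa using h3

theorem star_proj (V : ∀ k, H k →L[ℂ] E) (k : ι) :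
    star (V k ∘L adjoint (V k)) = V k ∘L adjoint (V k) := by
  rw [ContinuousLinearMap.star_eq_adjoint, adjoint_comp, adjoint_adjoint]

/-- The block-diagonal von Neumann algebra. -/
noncomputable def blockVN (V : ∀ k, H k →L[ℂ] E)
    (hV : ∀ k, adjoint (V k) ∘L V k = ContinuousLinearMap.id ℂ (H k))
    (A : ∀ k, VonNeumannAlgebra (H k)) : VonNeumannAlgebra E where
  carrier := blockDiag V (fun k => (A k : Set (H k →L[ℂ] H k)))
  mul_mem' := by
    intro X Y hX hY k
    obtain ⟨hX1, hX2⟩ := hX k
    obtain ⟨hY1, hY2⟩ := hY k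
    refine ⟨?_, ?_⟩
    · calc X * Y * (V k ∘L adjoint (V k)) = X * (Y * (V k ∘L adjoint (V k))) := mul_assoc _ _ _
        _ = X * ((V k ∘L adjoint (V k)) * Y) := by rw [hY1]
        _ = (X * (V k ∘L adjoint (V k))) * Y := (mul_assoc _ _ _).symm
        _ = ((V k ∘L adjoint (V k)) * X) * Y := by rw [hX1]
        _ = (V k ∘L adjoint (V k)) * (X * Y) := mul_assoc _ _ _
    · have h1 : adjoint (V k) ∘L (X * Y) ∘L V k =
          (adjoint (V k) ∘L X ∘L V k) * (adjoint (V k) ∘L Y ∘L V k) := by
        ext h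
        simp only [ContinuousLinearMap.mul_def, ContinuousLinearMap.comp_apply]
        rw [commute_apply V k X hX1, adjoint_apply_self V hV]
      rw [h1]
      exact mul_mem hX2 hY2
  one_mem' := by
    intro k
    refine ⟨by rw [one_mul, mul_one], ?_⟩
    have h1 : adjoint (V k) ∘L (1 : E →L[ℂ] E) ∘L V k = 1 := by
      ext h
      simp only [ContinuousLinearMap.comp_apply, _root_.one_apply_eq_self]
      rw [adjoint_apply_self V hV]
    rw [h1]
    exact one_mem (A k)
  add_mem' := by
    intro X Y hX hY k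
    obtain ⟨hX1, hX2⟩ := hX k
    obtain ⟨hY1, hY2⟩ := hY k
    refine ⟨by rw [add_mul, mul_add, hX1, hY1], ?_⟩
    have h1 : adjoint (V k) ∘L (X + Y) ∘L V k =
        adjoint (V k) ∘L X ∘L V k + adjoint (V k) ∘L Y ∘L V k := by
      ext h
      simp only [ContinuousLinearMap.comp_apply, _root_.add_apply, map_add]
    rw [h1]
    exact add_mem hX2 hY2
  zero_mem' := by
    intro k
    refine ⟨by rw [zero_mul, mul_zero], ?_⟩
    have h1 : adjoint (V k) ∘L (0 : E →L[ℂ] E) ∘L V k = 0 := by
      ext h
      simp only [ContinuousLinearMap.comp_apply, _root_.zero_apply, map_zero]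
    rw [h1]
    exact zero_mem (A k)
  algebraMap_mem' := by
    intro c k
    refine ⟨Algebra.commutes c _, ?_⟩
    have h1 : adjoint (V k) ∘L (algebraMap ℂ (E →L[ℂ] E) c) ∘L V k =
        algebraMap ℂ (H k →L[ℂ] H k) c := by
      rw [Algebra.algebraMap_eq_smul_one, Algebra.algebraMap_eq_smul_one]
      ext h
      simp only [ContinuousLinearMap.comp_apply, _root_.smul_apply,
        _root_.one_apply_eq_self, map_smul]
      rw [adjoint_apply_self V hV]
    rw [h1]
    exact (A k).toStarSubalgebra.algebraMap_mem c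
  star_mem' := by
    intro X hX k
    obtain ⟨hX1, hX2⟩ := hX k
    refine ⟨?_, ?_⟩
    · have h1 := congrArg star hX1
      rw [star_mul, star_mul, star_proj V k] at h1
      exact h1.symm
    · have h1 : adjoint (V k) ∘L star X ∘L V k = star (adjoint (V k) ∘L X ∘L V k) := by
        rw [ContinuousLinearMap.star_eq_adjoint, ContinuousLinearMap.star_eq_adjoint,
          adjoint_comp, adjoint_comp, adjoint_adjoint]
        rfl
      rw [h1]
      exact star_mem hX2
  centralizer_centralizer' :=
    blockDiag_centralizer_centralizer V hV _ (fun k => (A k).centralizer_centralizer)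

theorem mem_blockVN (V : ∀ k, H k →L[ℂ] E)
    (hV : ∀ k, adjoint (V k) ∘L V k = ContinuousLinearMap.id ℂ (H k))
    (A : ∀ k, VonNeumannAlgebra (H k)) (X : E →L[ℂ] E) :
    X ∈ blockVN V hV A ↔ ∀ k, X * (V k ∘L adjoint (V k)) = (V k ∘L adjoint (V k)) * X ∧
      adjoint (V k) ∘L X ∘L V k ∈ A k := Iff.rfl

/-- The range projections belong to the block-diagonal algebra. -/
theorem proj_mem_blockVN (V : ∀ k, H k →L[ℂ] E)
    (hV : ∀ k, adjoint (V k) ∘L V k = ContinuousLinearMap.id ℂ (H k))
    (hVo : ∀ j k, j ≠ k → adjoint (V j) ∘L V k = 0)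
    (A : ∀ k, VonNeumannAlgebra (H k)) (k0 : ι) :
    V k0 ∘L adjoint (V k0) ∈ blockVN V hV A := by
  rw [mem_blockVN]
  intro j
  by_cases hj : j = k0
  · subst hj
    refine ⟨rfl, ?_⟩
    have h1 : adjoint (V j) ∘L (V j ∘L adjoint (V j)) ∘L V j = 1 := by
      ext h
      simp only [ContinuousLinearMap.comp_apply, _root_.one_apply_eq_self]
      rw [adjoint_apply_self V hV, adjoint_apply_self V hV]
    rw [h1]
    exact one_mem (A j)
  · refine ⟨?_, ?_⟩
    · ext y
      simp only [ContinuousLinearMap.mul_def, ContinuousLinearMap.comp_apply]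
      rw [adjoint_apply_other V hVo k0 j (Ne.symm hj), adjoint_apply_other V hVo j k0 hj,
        map_zero, map_zero]
    · have h1 : adjoint (V j) ∘L (V k0 ∘L adjoint (V k0)) ∘L V j = 0 := by
        ext h
        simp only [ContinuousLinearMap.comp_apply, _root_.zero_apply]
        rw [adjoint_apply_other V hVo j k0 hj]
      rw [h1]
      exact zero_mem (A j)

/-- Lifts of operators of `A k0` belong to the block-diagonal algebra. -/
theorem lift_mem_blockVN (V : ∀ k, H k →L[ℂ] E)
    (hV : ∀ k, adjoint (V k) ∘L V k = ContinuousLinearMap.id ℂ (H k))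
    (hVo : ∀ j k, j ≠ k → adjoint (V j) ∘L V k = 0)
    (A : ∀ k, VonNeumannAlgebra (H k)) (k0 : ι) (T : H k0 →L[ℂ] H k0) (hT : T ∈ A k0) :
    V k0 ∘L T ∘L adjoint (V k0) ∈ blockVN V hV A := by
  rw [mem_blockVN]
  intro j
  by_cases hj : j = k0
  · subst hj
    refine ⟨?_, ?_⟩
    · ext y
      simp only [ContinuousLinearMap.mul_def, ContinuousLinearMap.comp_apply]
      rw [adjoint_apply_self V hV, adjoint_apply_self V hV]
    · have h1 : adjoint (V j) ∘L (V j ∘L T ∘L adjoint (V j)) ∘L V j = T := by
        ext h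
        simp only [ContinuousLinearMap.comp_apply]
        rw [adjoint_apply_self V hV, adjoint_apply_self V hV]
      rw [h1]
      exact hT
  · refine ⟨?_, ?_⟩
    · ext y
      simp only [ContinuousLinearMap.mul_def, ContinuousLinearMap.comp_apply]
      rw [adjoint_apply_other V hVo k0 j (Ne.symm hj), adjoint_apply_other V hVo j k0 hj,
        map_zero, map_zero, map_zero]
    · have h1 : adjoint (V j) ∘L (V k0 ∘L T ∘L adjoint (V k0)) ∘L V j = 0 := by
        ext h
        simp only [ContinuousLinearMap.comp_apply, _root_.zero_apply]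
        rw [adjoint_apply_other V hVo j k0 hj]
      rw [h1]
      exact zero_mem (A j)

end Vale.Agent.Lib.P096.H44
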