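import Mathlib

/-!
# P096 helper lemma: close commuting projections are equal

In a C*-ring, two commuting self-adjoint idempotents at distance less than one coincide.
-/

namespace Vale.Agent.Lib.P096.H44

/-- A self-adjoint idempotent of norm less than one in a C*-ring is zero. -/
theorem proj_eq_zero_of_norm_lt_one {A : Type*} [NonUnitalNormedRing A] [StarRing A]
    [CStarRing A] (e : A) (he : e * e = e) (he' : star e = e) (h : ‖e‖ < 1) : e = 0 := by
  have h1 : ‖e‖ = ‖e‖ * ‖e‖ := by
    have h2 := CStarRing.norm_star_mul_self (x := e)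
    rw [he', he] at h2
    exact h2
  have h3 : ‖e‖ = 0 := by
    by_contra hne
    have hpos : 0 < ‖e‖ := lt_of_le_of_ne (norm_nonneg e) (Ne.symm hne)
    have h4 : ‖e‖ * ‖e‖ < ‖e‖ * 1 := mul_lt_mul_of_pos_left h hpos
    linarith
  exact norm_eq_zero.mp h3

/-- Two commuting self-adjoint idempotents of a C*-ring at distance less than one are equal. -/
theorem proj_eq_of_commute_of_norm_lt_one {A : Type*} [NonUnitalNormedRing A] [StarRing A]
    [CStarRing A] (p q : A) (hp : p * p = p) (hp' : star p = p) (hq : q * q = q)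
    (hq' : star q = q) (hc : p * q = q * p) (h : ‖q - p‖ < 1) : q = p := by
  set d : A := q - p with hd
  have hd' : star d = d := by rw [hd, star_sub, hq', hp']
  -- d * d = q + p - 2 q p, written without numerals
  have hdd : d * d = q - q * p - (q * p - p) := by
    rw [hd]
    simp only [mul_sub, sub_mul, hq, hp, hc]
  have hqpq : q * p * q = q * p := by rw [mul_assoc, hc, ← mul_assoc, hq]
  have hqpp : q * p * p = q * p := by rw [mul_assoc, hp]
  have hpqp : p * (q * p) = q * p := by rw [← mul_assoc, hc, mul_assoc, hp]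
  have hqqp : q * (q * p) = q * p := by rw [← mul_assoc, hq]
  -- d * d is a self-adjoint idempotent
  have he' : star (d * d) = d * d := by rw [star_mul, hd']
  have hE : (q - q * p - (q * p - p)) * (q - q * p - (q * p - p)) =
      q - q * p - (q * p - p) := by
    simp only [mul_sub, sub_mul, hq, hp, hc, hqpq, hqpp, hpqp, hqqp, mul_assoc]
    abel
  have hee : d * d * (d * d) = d * d := by
    rw [hdd]
    exact hE
  have hnorm : ‖d * d‖ < 1 := by
    have h1 : ‖d * d‖ ≤ ‖d‖ * ‖d‖ := norm_mul_le d d
    have h2 : ‖d‖ * ‖d‖ < 1 := by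
      have h0 : 0 ≤ ‖d‖ := norm_nonneg d
      nlinarith
    linarith
  have he0 : d * d = 0 := proj_eq_zero_of_norm_lt_one (d * d) hee he' hnorm
  have hd0 : d = 0 := by
    have h1 : star d * d = 0 := by rw [hd']; exact he0
    exact (CStarRing.star_mul_self_eq_zero_iff d).mp h1
  rw [hd] at hd0
  exact sub_eq_zero.mp hd0

end Vale.Agent.Lib.P096.H44
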